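import Crest.Agent.R12.Base.G
import Crest.Prelude.Def_CubicGauss

/-! Row 12, block LK (owner helper22): translation of the definitions of the statement S0014.
Prefix for helper lemmas: `lkc_`. -/

set_option autoImplicit false

namespace Crest.Agent.R12.LK

open Crest.Agent.R17 Crest.NumberTheoryR.CubicGauss
open scoped ComplexConjugate

theorem eisOfCoords_eq (a b : ℤ) : eisOfCoords a b = (a : O) + b * om := rfl

theorem eisNorm_eq (n : O) : eisNorm n = nN n := by
  rw [nN, Ideal.absNorm_span_singleton]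
  rfl

/-- the two embeddings -/
theorem exists_kappa (σ : EisK →+* ℂ) : ∃ κ : ℂ →+* ℂ, (κ = RingHom.id ℂ ∨ κ = conj) ∧
    ∀ n : O, σ (n : EisK) = κ (sg n) := by
  have key : ∀ κ : ℂ →+* ℂ, σ ((om : O) : EisK) = κ (sg om) → ∀ n : O, σ (n : EisK) = κ (sg n) := by
    intro κ h n
    obtain ⟨x, y, rfl⟩ := exists_coord n
    have e : ((x + y * om : O) : EisK) = x + y * ((om : O) : EisK) := by
      simp only [NumberField.RingOfIntegers.coe_eq_algebraMap, map_add, map_mul, map_intCast]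
    rw [e]
    simp only [map_add, map_mul, map_intCast, h]
  have h1 : σ ((om : O) : EisK) ^ 2 = -1 - σ ((om : O) : EisK) := by
    have := congrArg (σ.comp (algebraMap O EisK)) om_sq
    rwa [map_pow, map_sub, map_neg, map_one] at this
  have h2 : sg om ^ 2 = -1 - sg om := by
    rw [← map_pow, om_sq, map_sub, map_neg, map_one]
  have h3 : (σ ((om : O) : EisK) - sg om) * (σ ((om : O) : EisK) - sg om ^ 2) = 0 := by
    linear_combination h1 - (σ ((om : O) : EisK) - sg om + 1) * h2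
  rcases mul_eq_zero.1 h3 with h | h
  · exact ⟨_, Or.inl rfl, key _ (sub_eq_zero.1 h)⟩
  · exact ⟨_, Or.inr rfl, key _ (by rw [bsb_conj_om, map_pow]; exact sub_eq_zero.1 h)⟩

theorem eQ_lam {x p : O} (hp : p ≠ 0) {a b : ℤ} (h : x * cj p = a + b * om) :
    eQ (lam * x) p = Complex.exp (2 * Real.pi * Complex.I * (((2 * a - b : ℤ) : ℂ) / (nN p : ℂ))) := by
  have hc : cj p ≠ 0 := fun h0 => hp (by rw [← cj_cj p, h0, map_zero])
  have e : cj p * (lam * x) = ((a - 2 * b : ℤ) : O) + ((2 * a - b : ℤ) : O) * om := by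
    rw [mul_left_comm, mul_comm (cj p), h, lam]
    push_cast
    linear_combination (2 * b : O) * om_sq
  rw [← eQ_mul_cancel hc, e, mul_comm (cj p), mul_cj, eQ_coord_nat _ _ (mt nN_eq_zero.1 hp)]

theorem lkc_trace (x y : ℤ) : Algebra.trace ℤ O ((x : O) + y * om) = 2 * x - y := by
  have h0 : ((x : O) + y * om) * bsa_basis 0 = (x : O) + y * om := by simp [bsa_basis]
  have h1 : ((x : O) + y * om) * bsa_basis 1 = ((-y : ℤ) : O) + ((x - y : ℤ) : O) * om := by
    have : bsa_basis 1 = om := by simp [bsa_basis]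
    rw [this]
    push_cast
    linear_combination (y : O) * om_sq
  rw [Algebra.trace_eq_matrix_trace bsa_basis, Matrix.trace_fin_two]
  simp only [Algebra.leftMulMatrix_eq_repr_mul, h0, h1, bsa_repr]
  ring

theorem eisAddChar_eq {p : O} (hp : p ≠ 0) (x : O) : eisAddChar p x = eQ (lam * x) p := by
  obtain ⟨a, b, h⟩ := exists_coord (x * cj p)
  have hp' : (p : EisK) ≠ 0 := NumberField.RingOfIntegers.coe_ne_zero_iff.2 hp
  have e : (x : EisK) / (p : EisK) = algebraMap ℚ EisK (nN p : ℚ)⁻¹ * ((x * cj p : O) : EisK) := by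
    have h1 := congrArg (algebraMap O EisK) (mul_cj p)
    rw [map_mul, map_natCast] at h1
    have h2 : (nN p : EisK) ≠ 0 := Nat.cast_ne_zero.2 (mt nN_eq_zero.1 hp)
    rw [map_inv₀, map_natCast, div_eq_iff hp', mul_assoc, eq_inv_mul_iff_mul_eq₀ h2, ← h1]
    simp only [NumberField.RingOfIntegers.coe_eq_algebraMap, map_mul]
    ring
  rw [eQ_lam hp h, eisAddChar, e, ← Algebra.smul_def, map_smul, ← Algebra.coe_trace_int, h, lkc_trace,
    smul_eq_mul]
  congr 2
  push_cast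
  ring

theorem cubicChar_eq {σ : EisK →+* ℂ} {κ : ℂ →+* ℂ} (h : ∀ n : O, σ (n : EisK) = κ (sg n)) {p : O}
    (hp : Prime p) (x : O) : cubicChar σ p x = κ (cb x p) := by
  classical
  have e : {u : EisR | u ^ 3 = 1 ∧ p ∣ x ^ ((eisNorm p - 1) / 3) - u} =
      (fun j => om ^ j) '' ↑((Finset.range 3).filter fun j => p ∣ x ^ ((nN p - 1) / 3) - om ^ j) := by
    ext u
    simp only [Set.mem_ofPred_eq, Set.mem_image, Finset.coe_filter, Finset.mem_range, eisNorm_eq]
    constructor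
    · rintro ⟨h1, h2⟩
      obtain ⟨j, hj, rfl⟩ := bsa_prim.eq_pow_of_pow_eq_one h1
      exact ⟨j, ⟨hj, h2⟩, rfl⟩
    · rintro ⟨j, ⟨-, h2⟩, rfl⟩
      exact ⟨by rw [← pow_mul, mul_comm, pow_mul, om_cube, one_pow], h2⟩
  rw [cubicChar, e, finsum_mem_image, finsum_mem_coe_finset, cb_prime hp, cbp, map_sum,
    Finset.sum_filter]
  · refine Finset.sum_congr rfl fun j _ => ?_
    split_ifs
    · exact h _
    · rw [map_zero]
  · intro i hi j hj hij
    simp only [Finset.coe_filter, Finset.mem_range, Set.mem_ofPred_eq] at hi hj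
    exact bsa_prim.pow_inj hi.1 hj.1 hij

theorem gc_lam {p : O} (hp : Prim p) : gc 1 lam p = GG p * (Real.sqrt (nm p) : ℂ) := by
  have h : IsCoprime lam p := (prime_lam.coprime_iff_not_dvd).2 hp.not_lam_dvd
  have h1 := gc_mul_arg 1 hp.ne_zero h 1
  rw [mul_one, pow_one, gc_one hp.ne_zero] at h1
  rw [h1, GG, mul_assoc]

theorem cubicGaussSum_eq {σ : EisK →+* ℂ} {κ : ℂ →+* ℂ} (hκ : κ = RingHom.id ℂ ∨ κ = conj)
    (h : ∀ n : O, σ (n : EisK) = κ (sg n)) {p : O} (hp : Prime p) (hp' : Prim p) :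
    cubicGaussSum σ p = κ (GG p) := by
  have h0 := hp.ne_zero
  have hc : cj p ≠ 0 := (prime_cj hp).ne_zero
  have hper : Per p fun y => κ (cb y p) * eQ (lam * y) p :=
    ((per_cb p).comp κ).mul (per_eQ lam p)
  have h1 := rsum_nat (m := nN p) (mt nN_eq_zero.1 h0) (hper.mono (dvd_nN p))
  rw [← mul_cj, rsum_lift h0 hc hper, nm_cj] at h1
  have h2 : rsum p (fun y => κ (cb y p) * eQ (lam * y) p) = κ (GG p) * (Real.sqrt (nm p) : ℂ) := by
    rcases hκ with rfl | rfl
    · simpa [gc, FT] using gc_lam hp'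
    · have h3 := conj_gc 1 lam h0
      rw [gc_lam hp', map_mul, Complex.conj_ofReal] at h3
      rw [h3]
      simp only [conj_cb, gc, FT]
  have h3 : nm p ^ (-(3 : ℝ) / 2) * (nm p * Real.sqrt (nm p)) = 1 := by
    have hp0 := nm_pos h0
    rw [Real.sqrt_eq_rpow, ← Real.rpow_one_add' hp0.le (by norm_num), ← Real.rpow_add hp0]
    norm_num
  have h4 := congrArg Complex.ofReal h3
  push_cast at h4
  simp only [cubicGaussSum, cubicChar_eq h hp, eisAddChar_eq h0, eisOfCoords_eq, eisNorm_eq,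
    Int.cast_natCast]
  rw [← h1, h2]
  change ((nm p ^ (-(3 : ℝ) / 2) : ℝ) : ℂ) * _ = _
  linear_combination κ (GG p) * h4

theorem defect_eq {σ : EisK →+* ℂ} {κ : ℂ →+* ℂ} (hκ : κ = RingHom.id ℂ ∨ κ = conj)
    (h : ∀ n : O, σ (n : EisK) = κ (sg n)) (l : ℤ) (X : ℕ) :
    twistedFirstMomentDefect σ l X = κ (∑ p ∈ qball X, al p ^ l * f0 p) := by
  classical
  have hr : ∀ r : ℝ, κ r = r := fun r => by rcases hκ with rfl | rfl <;> simp
  have hn : ∀ z, ‖κ z‖ = ‖z‖ := fun z => by rcases hκ with rfl | rfl <;> simp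
  rw [twistedFirstMomentDefect, ← Finset.sum_filter, map_sum]
  refine Finset.sum_bij (fun ab _ => crd ab) (fun ab hab => ?_) (fun _ _ _ _ h => crd.injective h)
    (fun p hp => ?_) (fun ab hab => ?_)
  · obtain ⟨-, h1, h2, h3⟩ := Finset.mem_filter.1 hab
    rw [eisNorm_eq] at h3
    exact mem_qball.2 ⟨Nat.cast_le.2 h3, h1, h2⟩
  · obtain ⟨⟨a, b⟩, rfl⟩ := crd.surjective p
    obtain ⟨h1, h2, h3⟩ := mem_qball.1 hp
    have h4 : nN (crd (a, b)) ≤ X := Nat.cast_le.1 h1
    have h5 : a ^ 2 - a * b + b ^ 2 ≤ X := by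
      rw [← nN_coord]
      exact_mod_cast h4
    have h6 : ∀ c : ℤ, 3 * c ^ 2 ≤ 4 * X → c ∈ Finset.Icc (-(X : ℤ)) X := fun c hc => by
      have hX : (0 : ℤ) ≤ X := Int.natCast_nonneg X
      rw [Finset.mem_Icc]
      constructor <;> by_contra! h7 <;> nlinarith [sq_nonneg (X : ℤ), sq_nonneg (3 * (X : ℤ) + 1)]
    refine ⟨(a, b), Finset.mem_filter.2 ⟨Finset.mem_product.2 ⟨h6 a ?_, h6 b ?_⟩, h2, h3, ?_⟩, rfl⟩
    · nlinarith [sq_nonneg (a - 2 * b)]
    · nlinarith [sq_nonneg (2 * a - b)]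
    · rw [eisNorm_eq]
      exact h4
  · obtain ⟨-, h1, h2, -⟩ := Finset.mem_filter.1 hab
    change _ = κ (al (eisOfCoords ab.1 ab.2) ^ l * f0 (eisOfCoords ab.1 ab.2))
    rw [f0, if_pos (psq_prime h1 h2), cubicGaussSum_eq hκ h h1 h2, angularChar, h, hn, al, map_mul,
      map_zpow₀, map_div₀, map_sub, hr, hr, eisNorm_eq]
    rfl

end Crest.Agent.R12.LK
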