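import Crest.Agent.R12.LK.Conv

/-! Row 12, block LK (owner helper22): cubic exponential sums and Gauss sums; split and inert primes.
Prefix for helper lemmas: `lkq_`. -/

set_option autoImplicit false

namespace Crest.Agent.R12.LK

open Crest.Agent.R17
open scoped ComplexConjugate

/-- the rational primes `≡ 1 mod 3` up to `X` -/
def P1 (X : ℕ) : Finset ℕ := (Nat.primesBelow (X + 1)).filter fun p => p % 3 = 1

/-- the cubic exponential sum -/
noncomputable def SC (r : ℕ) : ℂ :=
  ∑ x ∈ Finset.range r, Complex.exp (2 * Real.pi * Complex.I * ((x : ℂ) ^ 3 / (r : ℂ)))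

theorem lkqa_card {F : Type*} [Field F] [Fintype F] [DecidableEq F] {m : ℕ}
    (hm : Fintype.card F = 3 * m + 1) {w : F} (hw : IsPrimitiveRoot w 3) (a : F) :
    (Finset.univ.filter fun x : F => x ^ 3 = a).card =
      if a = 0 then 1 else if a ^ m = 1 then 3 else 0 := by
  split_ifs with h0 h1
  · subst h0
    rw [Finset.card_eq_one]
    exact ⟨0, by ext x; simp⟩
  · obtain ⟨g, hg⟩ := IsCyclic.exists_generator (α := Fˣ)
    obtain ⟨k, hk⟩ : ∃ k : ℕ, g ^ k = Units.mk0 a h0 :=
      (Submonoid.mem_powers_iff _ _).1 (mem_powers_iff_mem_zpowers.2 (hg _))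
    have ho : orderOf g = 3 * m := by
      rw [orderOf_eq_card_of_forall_mem_zpowers hg, Nat.card_eq_fintype_card, Fintype.card_units, hm]
      rfl
    have hm0 : m ≠ 0 := by
      rintro rfl
      have := Fintype.one_lt_card (α := F)
      omega
    have h2 : g ^ (k * m) = 1 := by
      rw [pow_mul, hk]
      ext
      simpa using h1
    have h3 : 3 ∣ k := by
      have := orderOf_dvd_of_pow_eq_one h2
      rw [ho] at this
      exact Nat.dvd_of_mul_dvd_mul_right (Nat.pos_of_ne_zero hm0) this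
    obtain ⟨j, rfl⟩ := h3
    have h4 : ((g : F) ^ j) ^ 3 = a := by
      have := congrArg (fun u : Fˣ => (u : F)) hk
      simp only [Units.val_pow_eq_pow_val, Units.val_mk0] at this
      rw [← this, ← pow_mul, mul_comm]
    have e : (Finset.univ.filter fun x : F => x ^ 3 = a) = (Polynomial.nthRoots 3 a).toFinset := by
      ext x
      simp [Polynomial.mem_nthRoots]
    rw [e, Multiset.toFinset_card_of_nodup (hw.nthRoots_nodup h0), hw.card_nthRoots, if_pos ⟨_, h4⟩]
  · rw [Finset.card_eq_zero, Finset.filter_eq_empty_iff]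
    rintro x - rfl
    have hx : x ≠ 0 := fun h => h0 (by simp [h])
    have := FiniteField.pow_card_sub_one_eq_one x hx
    rw [hm, Nat.add_sub_cancel, pow_mul] at this
    exact h1 this

/-- the cubic symbol counts cube roots.  Cf. `R17.rsum_sq`.  Use `cua_field`; in the finite field `F`
the number of `y` with `y³ = z` is `1 + χ z + χ z ^ 2` (`IsPrimitiveRoot.card_nthRoots` for the image
of `om`, `IsPrimitiveRoot.nthRoots_nodup`; `z ^ ((q-1)/3) = 1` implies that `z` is a cube because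
`Fˣ` is cyclic). -/
theorem rsum_cube {p : O} (hp : Prime p) (h : Prim p) {f : O → ℂ} (hf : Per p f) :
    rsum p (fun y => f (y ^ 3)) = rsum p fun y => (1 + cb y p + cb y p ^ 2) * f y := by
  classical
  have h3 := h.coprime_three
  have : (Ideal.span {p}).IsMaximal := PrincipalIdealRing.isMaximal_of_irreducible hp.irreducible
  let : Field (O ⧸ Ideal.span {p}) := Ideal.Quotient.field _
  have := finite_quot hp.ne_zero
  let : Fintype (O ⧸ Ideal.span {p}) := Fintype.ofFinite _
  have hcard : Fintype.card (O ⧸ Ideal.span {p}) = 3 * ((nN p - 1) / 3) + 1 := by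
    have := nN_mod_three h3
    rw [← Nat.card_eq_fintype_card, card_quot]
    omega
  have hk : ∀ u, Ideal.Quotient.mk (Ideal.span {p}) u = 0 ↔ p ∣ u :=
    fun u => Ideal.Quotient.eq_zero_iff_dvd p u
  have hone : ∀ k : ℕ, Ideal.Quotient.mk (Ideal.span {p}) om ^ k = 1 → om ^ k = 1 := fun k hk' => by
    refine syb_root hp h3 ((hk _).1 ?_)
    rw [map_sub, map_pow, hk', map_one, sub_self]
  have hw : IsPrimitiveRoot (Ideal.Quotient.mk (Ideal.span {p}) om) 3 :=
    ⟨by rw [← map_pow, om_cube, map_one], fun l hl => bsa_prim.dvd_of_pow_eq_one l (hone l hl)⟩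
  have hq : ∀ y, 1 + cb y p + cb y p ^ 2 = ((Finset.univ.filter
      fun x : O ⧸ Ideal.span {p} => x ^ 3 = Ideal.Quotient.mk (Ideal.span {p}) y).card : ℂ) := by
    intro y
    rw [lkqa_card hcard hw]
    by_cases hy : p ∣ y
    · rw [if_pos ((hk _).2 hy), syb_zero_dvd hp h3 hy]
      simp
    rw [if_neg ((hk _).not.2 hy)]
    obtain ⟨j, -, hj, hj'⟩ := exists_cb_dvd hp h3 hy
    rw [← hk, map_sub, map_pow, sub_eq_zero, map_pow] at hj
    rw [hj, hj']
    split_ifs with h1
    · rw [← map_pow, hone j h1, map_one]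
      norm_num
    · have a1 : sg om ^ j ≠ 1 := fun h2 => h1 (by
        have : om ^ j = 1 := sg_injective (by rw [map_pow, h2, map_one])
        rw [← map_pow, this, map_one])
      have a2 : (sg om ^ j) ^ 3 = 1 := by rw [← pow_mul, mul_comm, pow_mul, cub_om_cube, one_pow]
      have a3 : (sg om ^ j - 1) * (1 + sg om ^ j + (sg om ^ j) ^ 2) = 0 := by
        linear_combination a2
      simpa using (mul_eq_zero.1 a3).resolve_left (sub_ne_zero.2 a1)
  have hG : ∀ y, f y = f (Quotient.out (Ideal.Quotient.mk (Ideal.span {p}) y)) :=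
    fun y => (hf _ _ (sya_out p y)).symm
  have e1 := rsum_eq_quot (Q := p) fun x => f (Quotient.out (x ^ 3))
  have e2 := rsum_eq_quot (Q := p) fun x =>
    ((Finset.univ.filter fun z : O ⧸ Ideal.span {p} => z ^ 3 = x).card : ℂ) * f (Quotient.out x)
  simp only [← map_pow, ← hG, ← hq] at e1 e2
  rw [e1, e2, ← Finset.sum_fiberwise' Finset.univ (fun x => x ^ 3) fun x => f (Quotient.out x)]
  refine Finset.sum_congr rfl fun a _ => ?_
  rw [Finset.sum_const, nsmul_eq_mul]
  congr!

/-- `0, …, r - 1` is a residue system modulo a prime of norm `r` (`rsum_eq_of_system`; injective since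
`p ∣ m` implies `r ∣ m²`; surjective by counting, `card_quot`) -/
theorem rsum_range {p : O} {r : ℕ} (hr : r.Prime) (hn : nN p = r) {f : O → ℂ} (hf : Per p f) :
    rsum p f = ∑ x ∈ Finset.range r, f x := by
  classical
  have hp : p ≠ 0 := fun h => hr.ne_zero (by rw [← hn, h, nN_zero])
  have inj : ∀ i ∈ Finset.range r, ∀ j ∈ Finset.range r, p ∣ (i : O) - (j : O) → i = j := by
    intro i hi j hj hd
    have h1 := nN_dvd hd
    rw [hn, show (i : O) - (j : O) = (((i : ℤ) - j : ℤ) : O) by push_cast; rfl, nN_intCast] at h1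
    have h2 := hr.dvd_of_dvd_pow h1
    rw [Finset.mem_range] at hi hj
    have h3 := Nat.eq_zero_of_dvd_of_lt h2 (by omega)
    omega
  refine rsum_eq_of_system hp hf (Finset.range r) (fun i => (i : O)) (fun a => ?_) inj
  have := finite_quot hp
  let : Fintype (O ⧸ Ideal.span {p}) := Fintype.ofFinite _
  have h1 : (Finset.range r).image (fun i : ℕ => Ideal.Quotient.mk (Ideal.span {p}) (i : O)) =
      Finset.univ := by
    apply Finset.eq_univ_of_card
    rw [Finset.card_image_of_injOn, Finset.card_range, ← Nat.card_eq_fintype_card, card_quot, hn]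
    intro i hi j hj hij
    exact inj i hi j hj (rsa_mk_eq.1 hij)
  obtain ⟨i, hi, hi'⟩ := Finset.mem_image.1
    (h1 ▸ Finset.mem_univ (Ideal.Quotient.mk (Ideal.span {p}) a))
  exact ⟨i, hi, rsa_mk_eq.1 hi'.symm⟩

/-- coordinates: `cj p = p` forces `p` to be a rational integer -/
theorem cj_ne {p : O} (hr : (nN p).Prime) : cj p ≠ p := by
  intro hh
  obtain ⟨x, y, rfl⟩ := exists_coord p
  have e : cj ((x : O) + y * om) = ((x - y : ℤ) : O) + ((-y : ℤ) : O) * om := by
    rw [map_add, map_mul, map_intCast, map_intCast, cj_om, om_sq]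
    push_cast
    ring
  rw [e, coord_inj] at hh
  have hy : y = 0 := by omega
  rw [hy, Int.cast_zero, zero_mul, add_zero, nN_intCast] at hr
  exact Nat.Prime.not_prime_pow le_rfl hr

theorem lkq_b_real {z : ℂ} (h3 : z ^ 3 = 1) (hc : conj z = z) : z = 1 := by
  obtain ⟨r, rfl⟩ := Complex.conj_eq_iff_real.1 hc
  have h : r ^ 3 = 1 := by exact_mod_cast h3
  have h1 : r = 1 := (pow_eq_one_iff_of_ne_zero three_ne_zero).1 h |>.resolve_right (by
    rintro ⟨-, h2⟩
    exact absurd h2 (by decide))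
  rw [h1]
  simp

theorem lkq_b_cop {p : O} (h : Prim p) (hr : (nN p).Prime) : IsCoprime (cj p) p :=
  h.cj.coprime_of_ne h (prime_cj (prime_of_nN_prime hr)) (prime_of_nN_prime hr) (cj_ne hr)

/-- `cb_recip`, `cb_cj`: the value is real and a cube root of unity -/
theorem cb_cj_self {p : O} (h : Prim p) (hr : (nN p).Prime) : cb (cj p) p = 1 := by
  refine lkq_b_real ?_ ?_
  · rw [cb_pow_three, if_pos ⟨h.coprime_three, lkq_b_cop h hr⟩]
  · rw [← cb_cj, cj_cj, cb_recip h h.cj]

theorem lkq_b_g3_cj {c : O} (hc : c ≠ 0) : g3 (cj c) = conj (g3 c) := by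
  unfold g3 FT
  rw [map_div₀, Complex.conj_ofReal, nm_cj, conj_rsum,
    ← rsum_cj hc ((per_cb (cj c)).mul (per_eQ 1 (cj c)))]
  congr 2
  funext y
  rw [map_mul conj, ← cb_cj, ← eQ_cj, one_mul, one_mul]

theorem GG_cj {c : O} (hc : c ≠ 0) : GG (cj c) = conj (GG c) := by
  rw [GG, GG, map_mul conj, lkq_b_g3_cj hc, ← cb_cj lam c, cj_lam, cb_neg_left]

/-- `p = a + b ω`, `t = 2 a - b = p + cj p`, `m t ≡ 1 mod r`: `eQ (λ m x³) p = e(m t x³ / r) = e(x³ / r)`
(`eQ_lam`), `rsum_range`, `rsum_cube`, `rsum_eQ`, `gc_mul_arg` with `cb m p = 1` (`cb_cj_self`),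
`conj_gc`, `gc_lam`. -/
theorem SC_eq {p : O} (h : Prim p) (hr : (nN p).Prime) :
    SC (nN p) = (GG p + GG (cj p)) * (Real.sqrt (nm p) : ℂ) := by
  have hp := prime_of_nN_prime hr
  have h0 := h.ne_zero
  have hco := lkq_b_cop h hr
  obtain ⟨a, b, hab⟩ := exists_coord (cj p)
  have ht : ((2 * a - b : ℤ) : O) = p + cj p := by
    have e : p = cj ((a : O) + b * om) := by rw [← hab, cj_cj]
    rw [hab]
    nth_rw 1 [e]
    rw [map_add, map_mul, map_intCast, map_intCast, cj_om, om_sq]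
    push_cast
    ring
  have hnd : ¬ ((nN p : ℕ) : ℤ) ∣ 2 * a - b := by
    rintro ⟨w, hw⟩
    refine hp.not_isUnit (hco.isUnit_of_dvd' ⟨cj p * w - 1, ?_⟩ dvd_rfl)
    have e := congrArg (Int.cast : ℤ → O) hw
    rw [ht, Int.cast_mul, Int.cast_natCast, ← mul_cj] at e
    linear_combination e
  obtain ⟨k, m, hm⟩ := (Nat.prime_iff_prime_int.1 hr).irreducible.coprime_iff_not_dvd.2 hnd
  have hO : (k : O) * (p * cj p) + m * (p + cj p) = 1 := by
    have e := congrArg (Int.cast : ℤ → O) hm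
    rwa [Int.cast_add, Int.cast_mul, Int.cast_mul, ht, Int.cast_natCast, ← mul_cj,
      Int.cast_one] at e
  have hmp : IsCoprime (m : O) p := ⟨cj p, k * cj p + m, by linear_combination hO⟩
  have hc1 : cb (m : O) p = 1 := by
    have e : cb ((m : O) * cj p) p = cb 1 p :=
      cb_congr ⟨-(k * cj p + m), by linear_combination hO⟩
    rwa [cb_mul_left, cb_cj_self h hr, mul_one, cb_recip prim_one h, cb_one_right] at e
  have hr0 : ((nN p : ℕ) : ℂ) ≠ 0 := Nat.cast_ne_zero.2 hr.ne_zero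
  have hx : ∀ x : ℕ, Complex.exp (2 * Real.pi * Complex.I * ((x : ℂ) ^ 3 / (nN p : ℂ))) =
      eQ (m * lam * (x : O) ^ 3) p := fun x => by
    rw [show (m : O) * lam * (x : O) ^ 3 = lam * (m * (x : O) ^ 3) by ring,
      eQ_lam h0 (a := m * x ^ 3 * a) (b := m * x ^ 3 * b) (by rw [hab]; push_cast; ring),
      Complex.exp_eq_exp_iff_exists_int]
    refine ⟨x ^ 3 * k, ?_⟩
    have e := congrArg (Int.cast : ℤ → ℂ) hm
    push_cast at e ⊢
    field_simp
    linear_combination (-(x : ℂ) ^ 3) * e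
  have hper : Per p fun y => eQ (m * lam * y ^ 3) p := fun y y' hy =>
    per_eQ (m * lam) p _ _ (hy.trans (sub_dvd_pow_sub_pow y y' 3))
  have hnl : ¬ p ∣ m * lam := fun hd => hp.not_isUnit
    ((hmp.mul_left (h.coprime_three.of_isCoprime_of_dvd_right lam_dvd_three).symm).isUnit_of_dvd'
      hd dvd_rfl)
  have e1 : SC (nN p) = rsum p fun y => eQ (m * lam * y ^ 3) p := by
    rw [rsum_range hr rfl hper, SC]
    exact Finset.sum_congr rfl fun x _ => hx x
  have e2 : (rsum p fun y => (1 + cb y p + cb y p ^ 2) * eQ (m * lam * y) p) =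
      (rsum p fun y => eQ (m * lam * y) p) + gc 1 (m * lam) p + gc 2 (m * lam) p := by
    simp only [gc, FT, ← rsum_add h0, add_mul, one_mul, pow_one]
  rw [e1, rsum_cube hp h (per_eQ (m * lam) p), e2, rsum_eQ h0, if_neg hnl, gc_mul_arg 1 h0 hmp,
    gc_mul_arg 2 h0 hmp, hc1, ← mul_one 2, ← conj_gc 1 lam h0, gc_lam h, GG_cj h0, map_mul,
    Complex.conj_ofReal, map_one]
  ring

open Classical in
theorem lkqc_mem_qball {X : ℕ} {p : O} : p ∈ qball X ↔ nN p ≤ X ∧ Prime p ∧ Prim p := by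
  simp only [qball, Finset.mem_filter, mem_ball, nm, Nat.cast_le]

theorem lkqc_mem_P1 {X r : ℕ} : r ∈ P1 X ↔ r ≤ X ∧ r.Prime ∧ r % 3 = 1 := by
  simp only [P1, Finset.mem_filter, Nat.mem_primesBelow, Nat.lt_succ_iff, and_assoc]

open Classical in
/-- `Finset.sum_fiberwise_of_maps_to` along `nN`; the fibre over `r` is `{p, cj p}` (`cta_exists_prim`,
`mul_cj`, `Prim.eq_of_associated`, `cj_ne`) -/
theorem sum_split (X : ℕ) (F : O → ℂ) (G : ℕ → ℂ)
    (h : ∀ p, Prim p → (nN p).Prime → F p + F (cj p) = G (nN p)) :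
    ∑ p ∈ (qball X).filter (fun p => (nN p).Prime), F p = ∑ r ∈ P1 X, G r := by
  rw [← Finset.sum_fiberwise_of_maps_to (g := nN) (t := P1 X) (fun p hp => by
    rw [Finset.mem_filter, lkqc_mem_qball] at hp
    exact lkqc_mem_P1.2 ⟨hp.1.1, hp.2, nN_mod_three hp.1.2.2.coprime_three⟩)]
  refine Finset.sum_congr rfl fun r hr => ?_
  obtain ⟨hX, hr, h3⟩ := lkqc_mem_P1.1 hr
  obtain ⟨p, hp, hp', rfl⟩ := cta_exists_prim hr h3
  have hc : Prime (cj p) := prime_of_nN_prime (by rwa [nN_cj])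
  have e : ((qball X).filter (fun p => (nN p).Prime)).filter (fun q => nN q = nN p) = {p, cj p} := by
    ext q
    simp only [Finset.mem_filter, lkqc_mem_qball, Finset.mem_insert, Finset.mem_singleton]
    constructor
    · rintro ⟨⟨⟨-, hq, hq'⟩, -⟩, hn⟩
      have hd : q ∣ p * cj p := by
        rw [mul_cj, ← hn, ← mul_cj]; exact dvd_mul_right _ _
      rcases hq.dvd_or_dvd hd with h1 | h1
      · exact Or.inl (hq'.eq_of_associated hp' (associated_of_dvd_of_nN_eq h1 hn))
      · exact Or.inr (hq'.eq_of_associated hp'.cj (associated_of_dvd_of_nN_eq h1 (by rw [nN_cj, hn])))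
    · rintro (rfl | rfl)
      · exact ⟨⟨⟨hX, hp, hp'⟩, hr⟩, rfl⟩
      · rw [nN_cj]
        exact ⟨⟨⟨hX, hc, hp'.cj⟩, hr⟩, rfl⟩
  rw [e, Finset.sum_pair (cj_ne hr).symm, h p hp' hr]

open Classical in
/-- an inert primary prime is `-r` with `r² ≤ X` (`prime_cases`, `Prim.eq_of_associated`) -/
theorem card_inert (X : ℕ) :
    (((qball X).filter fun p => ¬ (nN p).Prime).card : ℝ) ≤ Real.sqrt X + 1 := by
  have h1 : ((qball X).filter fun p => ¬ (nN p).Prime) ⊆
      (Finset.range (Nat.sqrt X + 1)).image fun r : ℕ => -(r : O) := by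
    intro p hp
    rw [Finset.mem_filter, lkqc_mem_qball] at hp
    obtain ⟨⟨hX, hp, hp'⟩, hn⟩ := hp
    obtain ⟨r, -, h3, ha⟩ := (prime_cases hp).resolve_left hn
    have hr : Prim (-(r : O)) := by
      refine ⟨-((r / 3 : ℕ) : O) - 1, ?_⟩
      have : (r : O) = 3 * ((r / 3 : ℕ) : O) + 2 := by
        conv_lhs => rw [← Nat.div_add_mod r 3, h3]
        push_cast; ring
      linear_combination -this
    refine Finset.mem_image.2 ⟨r, ?_, (hp'.eq_of_associated hr ha.neg_right).symm⟩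
    rw [Finset.mem_range, Nat.lt_succ_iff, Nat.le_sqrt', ← nN_natCast, ← nN_assoc ha]
    exact hX
  have h2 := (Finset.card_le_card h1).trans Finset.card_image_le
  rw [Finset.card_range] at h2
  have h3 : ((Nat.sqrt X : ℕ) : ℝ) ≤ Real.sqrt X := Real.nat_sqrt_le_real_sqrt
  calc (((qball X).filter fun p => ¬ (nN p).Prime).card : ℝ) ≤ ((Nat.sqrt X + 1 : ℕ) : ℝ) := by
        exact_mod_cast h2
    _ ≤ _ := by push_cast; linarith

open Classical in
theorem sum_SC (X : ℕ) : ∑ r ∈ P1 X, SC r / (2 * (Real.sqrt r : ℂ)) =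
    (∑ p ∈ qball X, f0 p - ∑ p ∈ (qball X).filter (fun p => ¬ (nN p).Prime), f0 p) / 2 +
      cP * ((∑ r ∈ P1 X, (r : ℝ) ^ (-(1 : ℝ) / 6) : ℝ) : ℂ) := by
  have h1 := sum_split X f0
    (fun r => SC r / (Real.sqrt r : ℂ) - 2 * (cP * (((r : ℝ) ^ (-(1 : ℝ) / 6) : ℝ) : ℂ)))
    (fun p hp hr => by
      have hq := prime_of_nN_prime hr
      have hc : Prime (cj p) := prime_of_nN_prime (by rwa [nN_cj])
      have s1 : PSq p := ⟨hp, hq.squarefree⟩
      have s2 : PSq (cj p) := ⟨hp.cj, hc.squarefree⟩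
      have hs : ((Real.sqrt (nm p) : ℝ) : ℂ) ≠ 0 := by
        exact_mod_cast (Real.sqrt_pos.2 (nm_pos hq.ne_zero)).ne'
      rw [SC_eq hp hr, f0, f0, if_pos s1, if_pos s2, n6, n6, nm_cj]
      change _ = _ * _ / ((Real.sqrt (nm p) : ℝ) : ℂ) - 2 * (cP * (((nm p) ^ (-(1 : ℝ) / 6) : ℝ) : ℂ))
      rw [mul_div_cancel_right₀ _ hs]
      push_cast
      ring)
  rw [← Finset.sum_filter_add_sum_filter_not (qball X) (fun p => (nN p).Prime), add_sub_cancel_right,
    h1, Complex.ofReal_sum, Finset.mul_sum, Finset.sum_div, ← Finset.sum_add_distrib]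
  refine Finset.sum_congr rfl fun r _ => ?_
  ring

end Crest.Agent.R12.LK
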