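import Crest.Agent.Lib.SW.Main
import Crest.Agent.Lib.PNT.Main

/-! Row 12, block LK (owner helper22): `∑_{p ≤ X, p ≡ 1 (3)} p^(-1/6) ~ (3/5) X^(5/6) / log X`.
Prefix for helper lemmas: `lkp_`. -/

set_option autoImplicit false

namespace Crest.Agent.R12.LK

open Filter Topology

theorem lkpa_bern {s y d : ℝ} (h0 : 0 < s) (h1 : s < 1) (hy : 1 ≤ y) (hd : -1 ≤ d) :
    (y + d) ^ (1 - s) ≤ y ^ (1 - s) + (1 - s) * d * y ^ (-s) := by
  have hy0 : 0 < y := by linarith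
  have hdy : -1 ≤ d / y := by
    rw [le_div_iff₀ hy0]; linarith
  have h := rpow_one_add_le_one_add_mul_self hdy (p := 1 - s) (by linarith) (by linarith)
  have e1 : y + d = y * (1 + d / y) := by field_simp
  have e2 : y ^ (1 - s) = y * y ^ (-s) := by
    rw [sub_eq_add_neg, Real.rpow_add hy0, Real.rpow_one]
  have hp : 0 < y ^ (1 - s) := Real.rpow_pos_of_pos hy0 _
  rw [e1, Real.mul_rpow hy0.le (by linarith)]
  calc y ^ (1 - s) * (1 + d / y) ^ (1 - s) ≤ y ^ (1 - s) * (1 + (1 - s) * (d / y)) := by gcongr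
    _ = y ^ (1 - s) + (1 - s) * d * y ^ (-s) := by rw [e2]; field_simp

/-- induction on `n`; `(y + d)^p ≤ y^p + p d y^(p-1)` for `d = ± 1`, `y = n + 1`
(`rpow_one_add_le_one_add_mul_self`) -/
theorem pow_sum_bounds {s : ℝ} (h0 : 0 < s) (h1 : s < 1) (n : ℕ) :
    (n : ℝ) ^ (1 - s) - 1 ≤ (1 - s) * ∑ i ∈ Finset.range n, ((i : ℝ) + 1) ^ (-s) ∧
      (1 - s) * ∑ i ∈ Finset.range n, ((i : ℝ) + 1) ^ (-s) ≤ (n : ℝ) ^ (1 - s) := by
  have hlow : ∀ n : ℕ, ((n : ℝ) + 1) ^ (1 - s) - 1 ≤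
      (1 - s) * ∑ i ∈ Finset.range n, ((i : ℝ) + 1) ^ (-s) := by
    intro n
    induction n with
    | zero => simp
    | succ n ih =>
      have hn : (0 : ℝ) ≤ n := Nat.cast_nonneg n
      have := lkpa_bern (y := (n : ℝ) + 1) (d := 1) h0 h1 (by linarith) (by norm_num)
      rw [Finset.sum_range_succ, mul_add]
      push_cast
      linarith
  refine ⟨le_trans ?_ (hlow n), ?_⟩
  · have : (n : ℝ) ^ (1 - s) ≤ ((n : ℝ) + 1) ^ (1 - s) :=
      Real.rpow_le_rpow (Nat.cast_nonneg n) (by linarith) (by linarith)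
    linarith
  · induction n with
    | zero => simp only [Finset.range_zero, Finset.sum_empty, mul_zero]; positivity
    | succ n ih =>
      have hn : (0 : ℝ) ≤ n := Nat.cast_nonneg n
      have := lkpa_bern (y := (n : ℝ) + 1) (d := -1) h0 h1 (by linarith) le_rfl
      rw [add_neg_cancel_right] at this
      rw [Finset.sum_range_succ, mul_add]
      push_cast
      linarith

theorem lkpa_diff {s y : ℝ} (h0 : 0 < s) (h1 : s < 1) (hy : 1 ≤ y) :
    |(y + 1) ^ (-s) - y ^ (-s)| ≤ y ^ (-s) / y := by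
  have hy0 : 0 < y := by linarith
  have hle : (y + 1) ^ (-s) ≤ y ^ (-s) :=
    Real.rpow_le_rpow_of_nonpos hy0 (by linarith) (by linarith)
  rw [abs_sub_comm, abs_of_nonneg (by linarith)]
  have e1 : y + 1 = y * (1 + 1 / y) := by field_simp
  have hq : (1 : ℝ) ≤ 1 + 1 / y := le_add_of_nonneg_right (by positivity)
  have h2 : (1 + 1 / y) ^ (-1 : ℝ) ≤ (1 + 1 / y) ^ (-s) :=
    Real.rpow_le_rpow_of_exponent_le hq (by linarith)
  rw [Real.rpow_neg_one] at h2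
  have h3 : 1 - 1 / y ≤ (1 + 1 / y)⁻¹ := by
    rw [inv_eq_one_div, le_div_iff₀ (by linarith)]
    nlinarith [sq_nonneg (1 / y)]
  have hp : 0 < y ^ (-s) := Real.rpow_pos_of_pos hy0 _
  rw [e1, Real.mul_rpow hy0.le (by linarith)]
  have h4 : y ^ (-s) * (1 - 1 / y) ≤ y ^ (-s) * (1 + 1 / y) ^ (-s) :=
    mul_le_mul_of_nonneg_left (h3.trans h2) hp.le
  have e2 : y ^ (-s) / y = y ^ (-s) * (1 / y) := by ring
  rw [e2]
  linarith

theorem lkpa_pow_atTop {s : ℝ} (h1 : s < 1) :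
    Tendsto (fun n : ℕ => (n : ℝ) ^ (1 - s)) atTop atTop :=
  (tendsto_rpow_atTop (by linarith)).comp tendsto_natCast_atTop_atTop

theorem lkpa_sum_lim {s : ℝ} (h0 : 0 < s) (h1 : s < 1) :
    Tendsto (fun n : ℕ => (∑ i ∈ Finset.range n, ((i : ℝ) + 1) ^ (-s)) / (n : ℝ) ^ (1 - s))
      atTop (𝓝 (1 / (1 - s))) := by
  have hs : 0 < 1 - s := by linarith
  have hlow : Tendsto (fun n : ℕ => (1 - ((n : ℝ) ^ (1 - s))⁻¹) / (1 - s)) atTop
      (𝓝 (1 / (1 - s))) := by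
    have := ((tendsto_inv_atTop_zero.comp (lkpa_pow_atTop h1)).const_sub 1).div_const (1 - s)
    simpa using this
  refine tendsto_of_tendsto_of_tendsto_of_le_of_le' hlow tendsto_const_nhds ?_ ?_
  · filter_upwards [eventually_gt_atTop 0] with n hn
    have hp : 0 < (n : ℝ) ^ (1 - s) := Real.rpow_pos_of_pos (Nat.cast_pos.2 hn) _
    have := (pow_sum_bounds h0 h1 n).1
    rw [div_le_div_iff₀ hs hp, sub_mul, inv_mul_cancel₀ hp.ne']
    linarith
  · filter_upwards [eventually_gt_atTop 0] with n hn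
    have hp : 0 < (n : ℝ) ^ (1 - s) := Real.rpow_pos_of_pos (Nat.cast_pos.2 hn) _
    have := (pow_sum_bounds h0 h1 n).2
    rw [div_le_div_iff₀ hp hs]
    linarith

theorem lkpa_abel_zero {s : ℝ} (h0 : 0 < s) (h1 : s < 1) {b : ℕ → ℝ}
    (h : Tendsto (fun n : ℕ => (∑ i ∈ Finset.range n, b i) / n) atTop (𝓝 0)) :
    Tendsto (fun n : ℕ => (∑ i ∈ Finset.range n, ((i : ℝ) + 1) ^ (-s) * b i) / (n : ℝ) ^ (1 - s))
      atTop (𝓝 0) := by
  have hs : 0 < 1 - s := by linarith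
  have hw : ∀ i : ℕ, 0 < ((i : ℝ) + 1) ^ (-s) := fun i => Real.rpow_pos_of_pos (by positivity) _
  -- the correction terms are `o(w i)`
  have hlo : (fun i : ℕ => ((((i + 1 : ℕ) : ℝ) + 1) ^ (-s) - ((i : ℝ) + 1) ^ (-s)) *
      ∑ j ∈ Finset.range (i + 1), b j) =o[atTop] fun i : ℕ => ((i : ℝ) + 1) ^ (-s) := by
    refine Asymptotics.isLittleO_of_tendsto (fun i hi => absurd hi (hw i).ne') ?_
    have h' := (h.comp (tendsto_add_atTop_nat 1)).abs
    rw [abs_zero] at h'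
    refine squeeze_zero_norm (fun i => ?_) h'
    have hi : (0 : ℝ) ≤ i := Nat.cast_nonneg i
    have hd := lkpa_diff (y := (i : ℝ) + 1) h0 h1 (by linarith)
    simp only [Function.comp, Real.norm_eq_abs, abs_div, abs_mul]
    push_cast
    rw [abs_of_pos (hw i), abs_of_pos (by positivity : (0 : ℝ) < (i : ℝ) + 1),
      div_le_iff₀ (hw i)]
    calc _ ≤ ((i : ℝ) + 1) ^ (-s) / ((i : ℝ) + 1) * |∑ j ∈ Finset.range (i + 1), b j| := by
          gcongr
      _ = _ := by ring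
  have htop : Tendsto (fun n : ℕ => ∑ i ∈ Finset.range n, ((i : ℝ) + 1) ^ (-s)) atTop atTop := by
    refine tendsto_atTop_mono (f := fun n : ℕ => ((n : ℝ) ^ (1 - s) + -1) / (1 - s))
      (fun n => ?_) ?_
    · have := (pow_sum_bounds h0 h1 n).1
      rw [div_le_iff₀ hs]
      linarith
    · exact (tendsto_atTop_add_const_right _ _ (lkpa_pow_atTop h1)).atTop_div_const hs
  have hsum := (hlo.sum_range (fun i => (hw i).le) htop).comp_tendsto (tendsto_sub_atTop_nat 1)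
  have hbig : ((fun n : ℕ => ∑ i ∈ Finset.range n, ((i : ℝ) + 1) ^ (-s)) ∘ fun n : ℕ => n - 1)
      =O[atTop] fun n : ℕ => (n : ℝ) ^ (1 - s) := by
    refine Asymptotics.IsBigO.of_bound (1 / (1 - s)) (Eventually.of_forall fun n => ?_)
    have h2 := (pow_sum_bounds h0 h1 (n - 1)).2
    have h3 : ((n - 1 : ℕ) : ℝ) ^ (1 - s) ≤ (n : ℝ) ^ (1 - s) :=
      Real.rpow_le_rpow (Nat.cast_nonneg _) (Nat.cast_le.2 (Nat.sub_le n 1)) hs.le
    simp only [Function.comp, Real.norm_eq_abs]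
    rw [abs_of_nonneg (Finset.sum_nonneg fun i _ => (hw i).le),
      abs_of_nonneg (Real.rpow_nonneg (Nat.cast_nonneg n) _), div_mul_eq_mul_div, le_div_iff₀ hs]
    linarith
  have h2 := (hsum.trans_isBigO hbig).tendsto_div_nhds_zero
  have h3 := h.sub h2
  rw [sub_zero] at h3
  refine h3.congr' ?_
  filter_upwards [eventually_gt_atTop 0] with n hn
  have hn0 : (0 : ℝ) < n := Nat.cast_pos.2 hn
  have hparts := Finset.sum_range_by_parts (fun i : ℕ => ((i : ℝ) + 1) ^ (-s)) b n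
  simp only [smul_eq_mul] at hparts
  have e1 : ((n - 1 : ℕ) : ℝ) + 1 = n := by
    rw [Nat.cast_pred hn]; ring
  have e2 : (n : ℝ) ^ (1 - s) = n * (n : ℝ) ^ (-s) := by
    rw [sub_eq_add_neg, Real.rpow_add hn0, Real.rpow_one]
  have hp : 0 < (n : ℝ) ^ (-s) := Real.rpow_pos_of_pos hn0 _
  rw [hparts, e1, sub_div]
  simp only [Function.comp]
  congr 1
  rw [e2]
  field_simp

/-- `Finset.sum_range_by_parts` for `a i - c`; with `w i = (i+1)^(-s)` one has
`0 ≤ w i - w (i+1) ≤ w i / (i+1)`, so `Asymptotics.IsLittleO.sum_range` applies; `pow_sum_bounds`. -/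
theorem abel_pow {s c : ℝ} (h0 : 0 < s) (h1 : s < 1) {a : ℕ → ℝ}
    (h : Tendsto (fun n : ℕ => (∑ i ∈ Finset.range n, a i) / n) atTop (𝓝 c)) :
    Tendsto (fun n : ℕ => (∑ i ∈ Finset.range n, ((i : ℝ) + 1) ^ (-s) * a i) / (n : ℝ) ^ (1 - s))
      atTop (𝓝 (c / (1 - s))) := by
  have hb : Tendsto (fun n : ℕ => (∑ i ∈ Finset.range n, (a i - c)) / n) atTop (𝓝 0) := by
    have := h.sub_const c
    rw [sub_self] at this
    refine this.congr' ?_
    filter_upwards [eventually_gt_atTop 0] with n hn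
    have hn0 : (n : ℝ) ≠ 0 := (Nat.cast_pos.2 hn).ne'
    rw [Finset.sum_sub_distrib, Finset.sum_const, Finset.card_range, nsmul_eq_mul]
    field_simp
  have h2 := (lkpa_abel_zero h0 h1 hb).add ((lkpa_sum_lim h0 h1).const_mul c)
  rw [zero_add, mul_one_div] at h2
  refine h2.congr fun n => ?_
  rw [← mul_div_assoc, ← add_div, Finset.mul_sum, ← Finset.sum_add_distrib]
  congr 1
  exact Finset.sum_congr rfl fun i _ => by ring

/-- `SW.siegel_walfisz 1 1` with `q = 3`, `a = 1` -/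
theorem theta_lim : Tendsto (fun X : ℕ =>
    (∑ r ∈ (Nat.primesBelow (X + 1)).filter (fun p => p % 3 = 1), Real.log r) / X)
    atTop (𝓝 (1 / 2)) := by
  obtain ⟨C, -, h⟩ := Crest.Agent.SW.siegel_walfisz 1 1
  have hl : Tendsto (fun X : ℕ => Real.log X) atTop atTop :=
    Real.tendsto_log_atTop.comp tendsto_natCast_atTop_atTop
  rw [tendsto_iff_norm_sub_tendsto_zero]
  refine squeeze_zero' (Eventually.of_forall fun _ => norm_nonneg _) ?_ (hl.const_div_atTop C)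
  filter_upwards [eventually_ge_atTop 3, hl.eventually_ge_atTop 3] with X h3 h4
  have hX : (3 : ℝ) ≤ X := by exact_mod_cast h3
  have h5 := h X hX 3 (by norm_num) (by simpa using h4) 1 isCoprime_one_left
  have e : Crest.Agent.SW.thetaAP X 3 1 =
      ∑ r ∈ (Nat.primesBelow (X + 1)).filter (fun p => p % 3 = 1), Real.log r := by
    rw [Crest.Agent.SW.thetaAP, Nat.floor_natCast]
    refine Finset.sum_congr ?_ fun _ _ => rfl
    ext p
    simp only [Finset.mem_filter, Finset.mem_Icc, Nat.mem_primesBelow, Int.ModEq]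
    constructor
    · rintro ⟨⟨-, a⟩, b, c⟩
      exact ⟨⟨by omega, b⟩, by omega⟩
    · rintro ⟨⟨a, b⟩, c⟩
      exact ⟨⟨b.one_le, by omega⟩, b, by omega⟩
  rw [e, Nat.totient_prime Nat.prime_three, pow_one] at h5
  have hX0 : (0 : ℝ) < X := by linarith
  rw [Real.norm_eq_abs, div_sub' hX0.ne', abs_div, abs_of_pos hX0, div_le_iff₀ hX0,
    div_mul_eq_mul_div, mul_one_div]
  simpa using h5

theorem lkp_sum (g : ℕ → ℝ) (X : ℕ) :
    ∑ r ∈ (Nat.primesBelow (X + 1)).filter (fun p => p % 3 = 1), g r =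
      ∑ i ∈ Finset.range X, if (i + 1).Prime ∧ (i + 1) % 3 = 1 then g (i + 1) else 0 := by
  rw [Nat.primesBelow, Finset.filter_filter, Finset.sum_filter, Finset.sum_range_succ']
  simp

/-- `abel_pow` with `a i = log (i+1)` if `i + 1` is a prime `≡ 1 mod 3` and `0` otherwise -/
theorem log_sum_lim : Tendsto (fun X : ℕ =>
    (∑ r ∈ (Nat.primesBelow (X + 1)).filter (fun p => p % 3 = 1),
      (r : ℝ) ^ (-(1 : ℝ) / 6) * Real.log r) / (X : ℝ) ^ ((5 : ℝ) / 6)) atTop (𝓝 (3 / 5)) := by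
  have h := abel_pow (s := 1 / 6) (c := 1 / 2) (by norm_num) (by norm_num)
    (a := fun i => if (i + 1).Prime ∧ (i + 1) % 3 = 1 then Real.log ((i + 1 : ℕ) : ℝ) else 0)
    (theta_lim.congr fun X => by rw [lkp_sum fun r => Real.log r])
  rw [show (1 / 2 : ℝ) / (1 - 1 / 6) = 3 / 5 by norm_num,
    show (1 : ℝ) - 1 / 6 = 5 / 6 by norm_num] at h
  refine h.congr fun X => ?_
  rw [lkp_sum fun r => (r : ℝ) ^ (-(1 : ℝ) / 6) * Real.log r]
  congr 1
  refine Finset.sum_congr rfl fun i _ => ?_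
  rw [mul_ite, mul_zero, neg_div, Nat.cast_succ]

/-- `0 ≤ log (X / r) ≤ 6 (X / r)^(1/6)` (`Real.log_le_rpow_div`), then Cauchy–Schwarz
`(∑ r^(-1/3))² ≤ π(X) ∑_{n ≤ X} n^(-2/3) ≤ 3 π(X) X^(1/3)` (`sq_sum_le_card_mul_sum_sq`,
`pow_sum_bounds`) and `π(X) / X → 0` (`Lib.PNT.pnt`). -/
theorem diff_lim : Tendsto (fun X : ℕ =>
    (∑ r ∈ (Nat.primesBelow (X + 1)).filter (fun p => p % 3 = 1),
      (r : ℝ) ^ (-(1 : ℝ) / 6) * (Real.log X - Real.log r)) / (X : ℝ) ^ ((5 : ℝ) / 6))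
    atTop (𝓝 0) := by
  have hl : Tendsto (fun X : ℕ => Real.log X) atTop atTop :=
    Real.tendsto_log_atTop.comp tendsto_natCast_atTop_atTop
  have h1 : Tendsto (fun X : ℕ => (Nat.primeCounting X : ℝ) / X) atTop (𝓝 0) := by
    have h2 := (Crest.Agent.Lib.PNT.pnt.comp tendsto_natCast_atTop_atTop).mul hl.inv_tendsto_atTop
    rw [mul_zero] at h2
    refine h2.congr' ?_
    filter_upwards [hl.eventually_gt_atTop 0] with X hX
    simp only [Function.comp, Nat.floor_natCast, Pi.inv_apply]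
    field_simp
  have h2 := (h1.const_mul 108).sqrt
  rw [mul_zero, Real.sqrt_zero] at h2
  have hmem : ∀ {X r : ℕ}, r ∈ (Nat.primesBelow (X + 1)).filter (fun p => p % 3 = 1) →
      (0 : ℝ) < r ∧ (r : ℝ) ≤ X := fun {X r} hr => by
    obtain ⟨a, b⟩ := Nat.mem_primesBelow.1 (Finset.mem_filter.1 hr).1
    exact ⟨by exact_mod_cast b.pos, by exact_mod_cast Nat.lt_succ_iff.1 a⟩
  refine squeeze_zero' (Eventually.of_forall fun X => div_nonneg (Finset.sum_nonneg fun r hr => ?_)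
    (by positivity)) ?_ h2
  · exact mul_nonneg (by positivity) (sub_nonneg.2 (Real.log_le_log (hmem hr).1 (hmem hr).2))
  filter_upwards [eventually_ge_atTop 1] with X hX
  have hX0 : (0 : ℝ) < X := by exact_mod_cast hX
  set S := (Nat.primesBelow (X + 1)).filter (fun p => p % 3 = 1) with hS
  have h3 : ∑ r ∈ S, (r : ℝ) ^ (-(1 : ℝ) / 6) * (Real.log X - Real.log r) ≤
      6 * (X : ℝ) ^ (1 / 6 : ℝ) * ∑ r ∈ S, (r : ℝ) ^ (-(1 / 3) : ℝ) := by
    rw [Finset.mul_sum]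
    refine Finset.sum_le_sum fun r hr => ?_
    obtain ⟨a, -⟩ := hmem hr
    have b := Real.log_le_rpow_div (x := (X : ℝ) / r) (ε := 1 / 6) (by positivity) (by norm_num)
    rw [Real.log_div hX0.ne' a.ne', Real.div_rpow hX0.le a.le] at b
    refine (mul_le_mul_of_nonneg_left b (by positivity)).trans_eq ?_
    rw [show (-(1 / 3) : ℝ) = -1 / 6 - 1 / 6 by norm_num, Real.rpow_sub a]
    ring
  have h4 : (S.card : ℝ) ≤ Nat.primeCounting X := by
    have := Finset.card_filter_le (Nat.primesBelow (X + 1)) (fun p => p % 3 = 1)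
    rw [Nat.primesBelow_card_eq_primeCounting'] at this
    exact_mod_cast this
  have h5 : ∑ r ∈ S, ((r : ℝ) ^ (-(1 / 3) : ℝ)) ^ 2 ≤ 3 * (X : ℝ) ^ (1 / 3 : ℝ) := by
    have b := (pow_sum_bounds (s := 2 / 3) (by norm_num) (by norm_num) X).2
    rw [show (1 : ℝ) - 2 / 3 = 1 / 3 by norm_num] at b
    rw [hS, lkp_sum fun r => ((r : ℝ) ^ (-(1 / 3) : ℝ)) ^ 2]
    refine le_trans (Finset.sum_le_sum fun i _ => ?_)
      (by linarith : ∑ i ∈ Finset.range X, ((i : ℝ) + 1) ^ (-(2 / 3) : ℝ) ≤ _)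
    split_ifs
    · rw [← Real.rpow_natCast, ← Real.rpow_mul (by positivity), Nat.cast_succ]
      norm_num
    · positivity
  have h6 := (sq_sum_le_card_mul_sum_sq (s := S) (f := fun r : ℕ => (r : ℝ) ^ (-(1 / 3) : ℝ))).trans
    (mul_le_mul h4 h5 (Finset.sum_nonneg fun _ _ => sq_nonneg _) (Nat.cast_nonneg _))
  refine (div_le_div_of_nonneg_right h3 (by positivity)).trans (Real.le_sqrt_of_sq_le ?_)
  obtain ⟨y, hy0, hy⟩ : ∃ y : ℝ, 0 < y ∧ (X : ℝ) = y ^ 6 :=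
    ⟨(X : ℝ) ^ (1 / 6 : ℝ), by positivity, by
      rw [← Real.rpow_natCast, ← Real.rpow_mul hX0.le]; norm_num⟩
  have e : ∀ (t : ℝ) (k : ℕ), 6 * t = k → (X : ℝ) ^ t = y ^ k := fun t k ht => by
    rw [hy, ← Real.rpow_natCast, ← Real.rpow_mul hy0.le, ← Real.rpow_natCast, ← ht]
    norm_num
  rw [e (1 / 3) 2 (by norm_num)] at h6
  rw [e (1 / 6) 1 (by norm_num), e (5 / 6) 5 (by norm_num)]
  generalize ∑ r ∈ S, (r : ℝ) ^ (-(1 / 3) : ℝ) = T at h6 ⊢
  calc (6 * y ^ 1 * T / y ^ 5) ^ 2 = 36 * T ^ 2 / y ^ 8 := by field_simp; ring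
    _ ≤ 36 * (Nat.primeCounting X * (3 * y ^ 2)) / y ^ 8 := by gcongr
    _ = _ := by rw [hy]; field_simp; ring

theorem prime_sum_lim : Tendsto (fun X : ℕ =>
    (∑ r ∈ (Nat.primesBelow (X + 1)).filter (fun p => p % 3 = 1), (r : ℝ) ^ (-(1 : ℝ) / 6)) /
      ((X : ℝ) ^ ((5 : ℝ) / 6) / Real.log X)) atTop (𝓝 (3 / 5)) := by
  have h := log_sum_lim.add diff_lim
  rw [add_zero] at h
  refine h.congr fun X => ?_
  rw [← add_div, ← Finset.sum_add_distrib, div_div_eq_mul_div, Finset.sum_mul]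
  congr 1
  exact Finset.sum_congr rfl fun r _ => by ring

end Crest.Agent.R12.LK
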