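import Crest.Agent.R12.Iface
import Crest.Agent.R12.LK.Cube
import Crest.Agent.R12.LK.Pnt

/-! Row 12, block LK (owner helper22): `StMain → S0013, S0014`. -/

set_option autoImplicit false

namespace Crest.Agent.R12

open Crest.Agent.R17 Crest.NumberTheoryR.CubicGauss Filter Topology
open scoped ComplexConjugate

theorem LK.div_lim {S : ℕ → ℂ} {g : ℕ → ℝ} (hg : Tendsto g atTop (𝓝 0))
    (h : ∀ X : ℕ, 2 ≤ X → ‖S X‖ * Real.log X ≤ g X * (X : ℝ) ^ ((5 : ℝ) / 6)) :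
    Tendsto (fun X : ℕ => S X / (((X : ℝ) ^ ((5 : ℝ) / 6) / Real.log (X : ℝ) : ℝ) : ℂ))
      atTop (𝓝 0) := by
  refine squeeze_zero_norm' ?_ hg
  filter_upwards [eventually_ge_atTop 2] with X hX
  have h1 : (1 : ℝ) < X := by exact_mod_cast hX
  have h2 := Real.log_pos h1
  rw [norm_div, Complex.norm_real, Real.norm_of_nonneg (by positivity), div_div_eq_mul_div,
    div_le_iff₀ (by positivity)]
  exact h X hX

theorem LK.main_lim (h : StMain) (l : ℤ) :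
    Tendsto (fun X : ℕ => (∑ p ∈ qball X, al p ^ l * f0 p) /
      (((X : ℝ) ^ ((5 : ℝ) / 6) / Real.log (X : ℝ) : ℝ) : ℂ)) atTop (𝓝 0) := by
  obtain ⟨C, hC⟩ := h l
  have h1 : Tendsto (fun X : ℕ => C * Real.log X ^ (-(1 / 2) : ℝ)) atTop (𝓝 (C * 0)) :=
    ((tendsto_rpow_neg_atTop (by norm_num)).comp
      (Real.tendsto_log_atTop.comp tendsto_natCast_atTop_atTop)).const_mul C
  rw [mul_zero] at h1
  refine LK.div_lim h1 fun X hX => ?_
  have h2 : (2 : ℝ) ≤ X := by exact_mod_cast hX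
  have h3 := Real.log_pos (by linarith : (1 : ℝ) < X)
  refine (mul_le_mul_of_nonneg_right (hC X h2) h3.le).trans_eq ?_
  rw [show (-(1 / 2) : ℝ) = 1 - 3 / 2 by norm_num, Real.rpow_sub h3, Real.rpow_one]
  ring

open Classical in
theorem LK.inert_lim :
    Tendsto (fun X : ℕ => (∑ p ∈ (qball X).filter (fun p => ¬ (nN p).Prime), f0 p) /
      (((X : ℝ) ^ ((5 : ℝ) / 6) / Real.log (X : ℝ) : ℝ) : ℂ)) atTop (𝓝 0) := by
  have h1 : Tendsto (fun X : ℕ => 36 * (X : ℝ) ^ (-(1 / 6) : ℝ)) atTop (𝓝 (36 * 0)) :=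
    ((tendsto_rpow_neg_atTop (by norm_num)).comp tendsto_natCast_atTop_atTop).const_mul 36
  rw [mul_zero] at h1
  refine LK.div_lim h1 fun X hX => ?_
  have h2 : (2 : ℝ) ≤ X := by exact_mod_cast hX
  have h0 : (0 : ℝ) < X := by linarith
  have h3 := Real.log_nonneg (by linarith : (1 : ℝ) ≤ X)
  have h4 : Real.log X ≤ 6 * (X : ℝ) ^ (1 / 6 : ℝ) :=
    (Real.log_le_rpow_div h0.le (by norm_num : (0 : ℝ) < 1 / 6)).trans_eq (by ring)
  have h5 : 1 ≤ Real.sqrt X := Real.one_le_sqrt.2 (by linarith)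
  have h6 : ‖∑ p ∈ (qball X).filter (fun p => ¬ (nN p).Prime), f0 p‖ ≤ 6 * Real.sqrt X := by
    refine (norm_sum_le_of_le _ fun p _ => norm_f0_le p).trans ?_
    rw [Finset.sum_const, nsmul_eq_mul]
    linarith [LK.card_inert X]
  refine (mul_le_mul h6 h4 h3 (by positivity)).trans_eq ?_
  rw [Real.sqrt_eq_rpow, mul_mul_mul_comm, mul_assoc 36, ← Real.rpow_add h0, ← Real.rpow_add h0]
  norm_num

theorem s14 (h : StMain) (σ : EisK →+* ℂ) (ℓ : ℤ) :
    Tendsto (fun X : ℕ => twistedFirstMomentDefect σ ℓ X /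
        (((X : ℝ) ^ ((5 : ℝ) / 6) / Real.log (X : ℝ) : ℝ) : ℂ)) atTop (𝓝 0) := by
  obtain ⟨κ, hκ, h1⟩ := LK.exists_kappa σ
  rw [tendsto_zero_iff_norm_tendsto_zero]
  refine (tendsto_zero_iff_norm_tendsto_zero.1 (LK.main_lim h ℓ)).congr fun X => ?_
  rw [LK.defect_eq hκ h1, norm_div, norm_div]
  rcases hκ with rfl | rfl
  · rfl
  · rw [Complex.norm_conj]

theorem s13 (h : StMain) :
    Tendsto (fun X : ℕ =>
      (∑ p ∈ (Nat.primesBelow (X + 1)).filter (fun p => p % 3 = 1),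
          (∑ x ∈ Finset.range p, Complex.exp (2 * Real.pi * Complex.I * ((x : ℂ) ^ 3 / (p : ℂ)))) /
            (2 * (Real.sqrt (p : ℝ) : ℂ))) /
        (((X : ℝ) ^ ((5 : ℝ) / 6) / Real.log (X : ℝ) : ℝ) : ℂ))
      atTop (𝓝 ((((2 * Real.pi) ^ ((2 : ℝ) / 3) / (5 * Real.Gamma (2 / 3)) : ℝ) : ℂ))) := by
  have h1 := (((LK.main_lim h 0).sub LK.inert_lim).div_const 2).add
    (((Complex.continuous_ofReal.tendsto _).comp LK.prime_sum_lim).const_mul (cP : ℂ))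
  convert h1 using 2 with X
  · have h2 := LK.sum_SC X
    simp only [LK.P1, LK.SC] at h2
    simp only [h2, zpow_zero, one_mul, Function.comp, Complex.ofReal_div]
    ring
  · rw [cP]
    push_cast
    ring

end Crest.Agent.R12
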